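import Vale.Agent.P038.MathlibUsed

/-!
# P038 (H646): layer cake, relative minima of a submodular function, the key inequality
-/

namespace Vale.Agent.P038.H646

open Finset
open scoped Classical

variable {V : Type*} [Fintype V]

theorem layer (y m : V → ℕ)
    (h : ∀ s : ℕ, (univ.filter fun a => s < y a).card ≤ (univ.filter fun a => s < m a).card) :
    ∑ a, y a ≤ ∑ a, m a := by
  have key : ∀ M : ℕ, ∀ f : V → ℕ, (∀ a, f a ≤ M) →
      ∑ a, f a = ∑ s ∈ range M, (univ.filter fun a => s < f a).card := by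
    intro M f hf
    simp_rw [card_filter]
    rw [sum_comm]
    refine sum_congr rfl fun a _ => ?_
    rw [← card_filter]
    have h1 : (range M).filter (fun s => s < f a) = range (f a) := by
      ext s
      simp only [mem_filter, mem_range]
      exact ⟨fun h => h.2, fun h => ⟨h.trans_le (hf a), h⟩⟩
    rw [h1, card_range]
  have hy : ∀ a, y a ≤ ∑ a, y a + ∑ a, m a := by
    intro a
    have := single_le_sum (f := y) (fun _ _ => Nat.zero_le _) (mem_univ a)
    omega
  have hm : ∀ a, m a ≤ ∑ a, y a + ∑ a, m a := by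
    intro a
    have := single_le_sum (f := m) (fun _ _ => Nat.zero_le _) (mem_univ a)
    omega
  have h1 := key _ y hy
  have h2 := key _ m hm
  have h3 : ∑ s ∈ range (∑ a, y a + ∑ a, m a), (univ.filter fun a => s < y a).card ≤
      ∑ s ∈ range (∑ a, y a + ∑ a, m a), (univ.filter fun a => s < m a).card :=
    sum_le_sum fun s _ => h s
  exact (h1.le.trans h3).trans h2.ge

/-- The minimum of `c` on the sets between `Y` and `K`. -/
noncomputable def mc (c : Finset V → ℤ) (K Y : Finset V) : ℤ :=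
  if h : (K.powerset.filter fun Z => Y ⊆ Z).Nonempty then
    (K.powerset.filter fun Z => Y ⊆ Z).inf' h c else 0

theorem mc_le {c : Finset V → ℤ} {K Y Z : Finset V} (h1 : Y ⊆ Z) (h2 : Z ⊆ K) :
    mc c K Y ≤ c Z := by
  have h : Z ∈ K.powerset.filter fun Z => Y ⊆ Z := mem_filter.2 ⟨mem_powerset.2 h2, h1⟩
  unfold mc
  rw [dif_pos ⟨Z, h⟩]
  exact inf'_le _ h

theorem exists_mc (c : Finset V → ℤ) {K Y : Finset V} (h : Y ⊆ K) :
    ∃ Z, Y ⊆ Z ∧ Z ⊆ K ∧ c Z = mc c K Y := by
  have hne : (K.powerset.filter fun Z => Y ⊆ Z).Nonempty :=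
    ⟨Y, mem_filter.2 ⟨mem_powerset.2 h, Subset.refl _⟩⟩
  obtain ⟨Z, hZ, hZ'⟩ := exists_mem_eq_inf' hne c
  rw [mem_filter, mem_powerset] at hZ
  refine ⟨Z, hZ.2, hZ.1, ?_⟩
  unfold mc
  rw [dif_pos hne]
  exact hZ'.symm

theorem mc_mono {c : Finset V → ℤ} {K Y Y' : Finset V} (h : Y ⊆ Y') (h' : Y' ⊆ K) :
    mc c K Y ≤ mc c K Y' := by
  obtain ⟨Z, h1, h2, h3⟩ := exists_mc c h'
  rw [← h3]
  exact mc_le (h.trans h1) h2

theorem mc_self {c : Finset V → ℤ} {K : Finset V} : mc c K K = c K := by
  obtain ⟨Z, h1, h2, h3⟩ := exists_mc c (Subset.refl K)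
  rw [← h3, Subset.antisymm h2 h1]

theorem mc_eq {c : Finset V → ℤ} {K Y : Finset V} (h : Y ⊆ K)
    (h' : ∀ Z, Y ⊆ Z → Z ⊆ K → c Y ≤ c Z) : mc c K Y = c Y := by
  obtain ⟨Z, h1, h2, h3⟩ := exists_mc c h
  have h4 := h' Z h1 h2
  have h5 := mc_le (c := c) (Subset.refl Y) h
  omega

/-- Marginals of the relative minima. -/
theorem mc_marg {c : Finset V → ℤ} (hc : ∀ S T, c (S ∩ T) + c (S ∪ T) ≤ c S + c T)
    {K' K X Y X' Y' : Finset V} (hK : K' ⊆ K) (hXY : X ⊆ Y) (hX' : X ⊆ X') (hX'K : X' ⊆ K')
    (hY : Y ⊆ K) (hY' : Y' ⊆ Y ∪ X') :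
    mc c K Y' + mc c K' X ≤ mc c K' X' + mc c K Y := by
  obtain ⟨Z', h1, h2, h3⟩ := exists_mc c hX'K
  obtain ⟨Z, h4, h5, h6⟩ := exists_mc c hY
  rw [← h3, ← h6]
  have h7 : mc c K' X ≤ c (Z' ∩ Z) :=
    mc_le (subset_inter (hX'.trans h1) (hXY.trans h4)) (inter_subset_left.trans h2)
  have h8 : mc c K Y' ≤ c (Z' ∪ Z) := by
    refine mc_le ?_ (union_subset (h2.trans hK) h5)
    exact hY'.trans (union_subset (h4.trans subset_union_right) (h1.trans subset_union_left))
  have h9 := hc Z' Z
  omega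

/-- The key inequality. -/
theorem key_lemma (c : Finset V → ℤ) (hc : ∀ S T, c (S ∩ T) + c (S ∪ T) ≤ c S + c T)
    (M : V → Finset V) (P U : V → Finset V) (hPU : ∀ a, P a ⊆ U a)
    (hR : ∀ a S, P a ⊆ S → S ⊆ U a → c (P a) ≤ c S)
    (hC : ∀ b (T : Finset V), (∀ a ∈ T, b ∈ U a ∧ b ∉ P a) →
      T.card ≤ (univ.filter fun a' => (∀ z ∈ M a', b ∈ U z) ∧ ∃ z ∈ M a', z ∈ T).card) :
    ∑ a, (c (U a) - c (P a)) ≤
      ∑ a, (c (univ.filter fun x => ∀ z ∈ M a, x ∈ U z) -
        c (univ.filter fun x => ∀ z ∈ M a, x ∈ P z)) := by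
  set S : V → Finset V := fun a => univ.filter fun x => ∀ z ∈ M a, x ∈ P z with hS
  set S' : V → Finset V := fun a => univ.filter fun x => ∀ z ∈ M a, x ∈ U z with hS'
  have memS : ∀ a x, x ∈ S a ↔ ∀ z ∈ M a, x ∈ P z := by
    intro a x
    simp [hS]
  have memS' : ∀ a x, x ∈ S' a ↔ ∀ z ∈ M a, x ∈ U z := by
    intro a x
    simp [hS']
  have hSS' : ∀ a, S a ⊆ S' a := by
    intro a x hx
    rw [memS] at hx
    rw [memS']
    exact fun z hz => hPU z (hx z hz)
  have hSP : ∀ a, ∀ z ∈ M a, S a ⊆ P z := by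
    intro a z hz x hx
    exact (memS a x).1 hx z hz
  have hSU : ∀ a, ∀ z ∈ M a, S' a ⊆ U z := by
    intro a z hz x hx
    exact (memS' a x).1 hx z hz
  -- (iii)
  have h3 : ∀ a Z, S a ⊆ Z → Z ⊆ S' a → c (S a) ≤ c Z := by
    intro a Z h1 h2
    have h4 : ∀ N : Finset V, N ⊆ M a → c (Z.filter fun x => ∀ z ∈ N, x ∈ P z) ≤ c Z := by
      intro N
      induction N using Finset.induction_on with
      | empty =>
        intro _
        have : (Z.filter fun x => ∀ z ∈ (∅ : Finset V), x ∈ P z) = Z := by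
          ext x
          simp
        rw [this]
      | insert z N _ ih =>
        intro hN
        have hzM : z ∈ M a := hN (mem_insert_self _ _)
        have ih' := ih ((subset_insert _ _).trans hN)
        set ZN := Z.filter fun x => ∀ z ∈ N, x ∈ P z with hZN
        have e : (Z.filter fun x => ∀ z' ∈ insert z N, x ∈ P z') = ZN ∩ P z := by
          ext x
          simp only [mem_filter, mem_insert, mem_inter, hZN, forall_eq_or_imp]
          tauto
        rw [e]
        have h5 := hc ZN (P z)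
        have h6 : c (P z) ≤ c (ZN ∪ P z) := by
          refine hR z _ subset_union_right (union_subset ?_ (hPU z))
          exact (filter_subset _ _).trans (h2.trans (hSU a z hzM))
        omega
    have h5 := h4 (M a) (Subset.refl _)
    have e : (Z.filter fun x => ∀ z ∈ M a, x ∈ P z) = S a := by
      ext x
      rw [mem_filter, memS]
      exact ⟨fun h => h.2, fun h => ⟨h1 ((memS a x).2 h), h⟩⟩
    rwa [e] at h5
  -- one step
  have step : ∀ (W : Finset V) (b : V),
      ∑ a, (mc c (U a) (P a ∪ (U a ∩ insert b W)) - mc c (U a) (P a ∪ (U a ∩ W))) ≤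
      ∑ a, (mc c (S' a) (S a ∪ (S' a ∩ insert b W)) - mc c (S' a) (S a ∪ (S' a ∩ W))) := by
    intro W b
    have hy0 : ∀ a, 0 ≤ mc c (U a) (P a ∪ (U a ∩ insert b W)) - mc c (U a) (P a ∪ (U a ∩ W)) := by
      intro a
      have := mc_mono (c := c) (K := U a) (Y := P a ∪ (U a ∩ W)) (Y' := P a ∪ (U a ∩ insert b W))
        (union_subset_union (Subset.refl _) (inter_subset_inter (Subset.refl _) (subset_insert _ _)))
        (union_subset (hPU a) inter_subset_left)
      omega
    have hm0 : ∀ a, 0 ≤ mc c (S' a) (S a ∪ (S' a ∩ insert b W)) -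
        mc c (S' a) (S a ∪ (S' a ∩ W)) := by
      intro a
      have := mc_mono (c := c) (K := S' a) (Y := S a ∪ (S' a ∩ W))
        (Y' := S a ∪ (S' a ∩ insert b W))
        (union_subset_union (Subset.refl _) (inter_subset_inter (Subset.refl _) (subset_insert _ _)))
        (union_subset (hSS' a) inter_subset_left)
      omega
    set y : V → ℤ := fun a =>
      mc c (U a) (P a ∪ (U a ∩ insert b W)) - mc c (U a) (P a ∪ (U a ∩ W)) with hy
    set m : V → ℤ := fun a =>
      mc c (S' a) (S a ∪ (S' a ∩ insert b W)) - mc c (S' a) (S a ∪ (S' a ∩ W)) with hm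
    have hypos : ∀ a, 0 < y a → b ∈ U a ∧ b ∉ P a := by
      intro a ha
      by_contra hcon
      have e : P a ∪ (U a ∩ insert b W) = P a ∪ (U a ∩ W) := by
        ext x
        simp only [mem_union, mem_inter, mem_insert]
        by_cases hxb : x = b
        · subst hxb
          by_cases h1 : x ∈ U a
          · have h2 : x ∈ P a := by
              by_contra h2
              exact hcon ⟨h1, h2⟩
            tauto
          · tauto
        · tauto
      have : y a = 0 := by
        simp only [hy]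
        rw [e]
        omega
      omega
    -- (v)
    have hv : ∀ a z, z ∈ M a → b ∈ S' a → y z ≤ m a := by
      intro a z hz hb
      have hbU : b ∈ U z := hSU a z hz hb
      have := mc_marg (c := c) hc (K' := S' a) (K := U z) (X := S a ∪ (S' a ∩ W))
        (Y := P z ∪ (U z ∩ W)) (X' := S a ∪ (S' a ∩ insert b W))
        (Y' := P z ∪ (U z ∩ insert b W)) (hSU a z hz)
        (union_subset_union (hSP a z hz) (inter_subset_inter (hSU a z hz) (Subset.refl _)))
        (union_subset_union (Subset.refl _) (inter_subset_inter (Subset.refl _) (subset_insert _ _)))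
        (union_subset (hSS' a) inter_subset_left)
        (union_subset (hPU z) inter_subset_left)
        (by
          intro x hx
          simp only [mem_union, mem_inter, mem_insert] at hx ⊢
          rcases hx with hx | ⟨hx, hx' | hx'⟩
          · tauto
          · subst hx'
            tauto
          · tauto)
      simp only [hy, hm]
      omega
    have hlayer := layer (fun a => (y a).toNat) (fun a => (m a).toNat) (by
      intro s
      set T := univ.filter fun a => s < (y a).toNat with hT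
      have hT' : ∀ a ∈ T, (s : ℤ) < y a := by
        intro a ha
        have := (mem_filter.1 ha).2
        omega
      refine (hC b T fun a ha => hypos a ?_).trans (card_le_card ?_)
      · have := hT' a ha
        omega
      · intro a' ha'
        rw [mem_filter] at ha' ⊢
        obtain ⟨_, h1, z, hz, hzT⟩ := ha'
        refine ⟨mem_univ _, ?_⟩
        have h2 := hv a' z hz ((memS' a' b).2 h1)
        have h4 := hT' z hzT
        omega)
    have e1 : ((∑ a, (y a).toNat : ℕ) : ℤ) = ∑ a, y a := by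
      push_cast
      refine sum_congr rfl fun a _ => ?_
      exact Int.toNat_of_nonneg (hy0 a)
    have e2 : ((∑ a, (m a).toNat : ℕ) : ℤ) = ∑ a, m a := by
      push_cast
      refine sum_congr rfl fun a _ => ?_
      exact Int.toNat_of_nonneg (hm0 a)
    rw [← e1, ← e2]
    exact_mod_cast hlayer
  have ind : ∀ W : Finset V,
      ∑ a, (mc c (U a) (P a ∪ (U a ∩ W)) - mc c (U a) (P a ∪ (U a ∩ ∅))) ≤
      ∑ a, (mc c (S' a) (S a ∪ (S' a ∩ W)) - mc c (S' a) (S a ∪ (S' a ∩ ∅))) := by
    intro W
    induction W using Finset.induction_on with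
    | empty => simp
    | insert b W _ ih =>
      have h1 := step W b
      simp only [sum_sub_distrib] at h1 ih ⊢
      omega
  have h4 := ind univ
  have h5 : ∀ a, mc c (U a) (P a ∪ (U a ∩ univ)) = c (U a) := by
    intro a
    rw [inter_univ, union_eq_right.2 (hPU a), mc_self]
  have h6 : ∀ a, mc c (U a) (P a ∪ (U a ∩ ∅)) = c (P a) := by
    intro a
    rw [inter_empty, union_empty]
    exact mc_eq (hPU a) (hR a)
  have h7 : ∀ a, mc c (S' a) (S a ∪ (S' a ∩ univ)) = c (S' a) := by
    intro a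
    rw [inter_univ, union_eq_right.2 (hSS' a), mc_self]
  have h8 : ∀ a, mc c (S' a) (S a ∪ (S' a ∩ ∅)) = c (S a) := by
    intro a
    rw [inter_empty, union_empty]
    exact mc_eq (hSS' a) (h3 a)
  simp only [h5, h6, h7, h8] at h4
  exact h4

end Vale.Agent.P038.H646
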