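import Vale.Agent.P038.H646.Graph

/-!
# P038 (H646): deletion lemma and Seymour's second neighbourhood conjecture
-/

namespace Vale.Agent.P038.H646

open Finset
open scoped Classical

variable {V : Type*} [Fintype V]

/-- Delete all arcs from `X` to `Z`. -/
def del (D : OGraph V) (X Z : Finset V) : OGraph V where
  arc u v := D.arc u v ∧ ¬ (u ∈ X ∧ v ∈ Z)
  loopless v h := D.loopless v h.1
  asymm u v h h' := D.asymm u v h.1 h'.1

/-- The number of arcs. -/
noncomputable def arcs (D : OGraph V) : ℕ := ∑ v, (N1 D v).card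

/-- A counterexample. -/
def CE (D : OGraph V) : Prop := ∀ v, (N2 D v).card < (N1 D v).card

/-- The function minimised in the deletion lemma. -/
noncomputable def dd (D : OGraph V) (X T : Finset V) : ℤ :=
  ((cN D T \ X).card : ℤ) - 2 * T.card

theorem del_lemma {D : OGraph V} (hce : CE D) (hmin : ∀ D' : OGraph V, CE D' → arcs D ≤ arcs D')
    (X T : Finset V) (hT : T ⊆ cN D X \ X) (hTmin : ∀ S ⊆ cN D X \ X, dd D X T ≤ dd D X S) :
    T = cN D X \ X := by
  by_contra hne
  set L := cN D X \ X with hL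
  set Z := L \ T with hZ
  set D' := del D X Z with hD'
  have hce' : CE D' := by
    intro y
    by_cases hy : y ∈ X
    · set Dy := N1 D y ∩ Z with hDy
      set E := cN D Dy \ (cN D T ∪ X) with hE
      have hN1 : N1 D' y = N1 D y \ Dy := by
        ext z
        rw [mem_N1, mem_sdiff, hDy, mem_inter, mem_N1]
        constructor
        · rintro ⟨h1, h2⟩
          exact ⟨h1, fun h3 => h2 ⟨hy, h3.2⟩⟩
        · rintro ⟨h1, h2⟩
          exact ⟨h1, fun h3 => h2 ⟨h1, h3.2⟩⟩
      have hDyL : Dy ⊆ L := inter_subset_right.trans sdiff_subset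
      have hEsub : E ⊆ N2 D y ∪ Dy := by
        intro z hz
        obtain ⟨hz1, hz2⟩ := mem_sdiff.1 hz
        have hzX : z ∉ X := fun h3 => hz2 (mem_union_right _ h3)
        have hzT : z ∉ cN D T := fun h3 => hz2 (mem_union_left _ h3)
        obtain ⟨c, hc, hcz⟩ := mem_cN.1 hz1
        rcases hcz with hcz | hcz
        · exact mem_union_right _ (hcz ▸ hc)
        · have hyc : D.arc y c := mem_N1.1 (mem_inter.1 hc).1
          by_cases hyz : D.arc y z
          · refine mem_union_right _ (mem_inter.2 ⟨mem_N1.2 hyz, mem_sdiff.2 ⟨?_, ?_⟩⟩)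
            · exact mem_sdiff.2 ⟨mem_cN.2 ⟨y, hy, Or.inr hyz⟩, hzX⟩
            · exact fun h3 => hzT (sub_cN D T h3)
          · refine mem_union_left _ (mem_N2.2 ⟨?_, hyz, c, hyc, hcz⟩)
            rintro rfl
            exact hzX hy
      have hN2 : N2 D' y ⊆ (N2 D y ∪ Dy) \ E := by
        intro z hz
        rw [mem_N2] at hz
        obtain ⟨hzy, hnz, c, hyc, hcz⟩ := hz
        refine mem_sdiff.2 ⟨?_, ?_⟩
        · by_cases hyz : D.arc y z
          · refine mem_union_right _ (mem_inter.2 ⟨mem_N1.2 hyz, ?_⟩)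
            by_contra hzZ
            exact hnz ⟨hyz, fun h3 => hzZ h3.2⟩
          · exact mem_union_left _ (mem_N2.2 ⟨hzy, hyz, c, hyc.1, hcz.1⟩)
        · intro hzE
          obtain ⟨_, hz2⟩ := mem_sdiff.1 hzE
          have hzX : z ∉ X := fun h3 => hz2 (mem_union_right _ h3)
          have hzT : z ∉ cN D T := fun h3 => hz2 (mem_union_left _ h3)
          by_cases hcX : c ∈ X
          · have hzL : z ∈ L := mem_sdiff.2 ⟨mem_cN.2 ⟨c, hcX, Or.inr hcz.1⟩, hzX⟩
            have hzZ : z ∈ Z := mem_sdiff.2 ⟨hzL, fun h3 => hzT (sub_cN D T h3)⟩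
            exact hcz.2 ⟨hcX, hzZ⟩
          · have hcL : c ∈ L := mem_sdiff.2 ⟨mem_cN.2 ⟨y, hy, Or.inr hyc.1⟩, hcX⟩
            have hcT : c ∈ T := by
              by_contra hcT
              exact hyc.2 ⟨hy, mem_sdiff.2 ⟨hcL, hcT⟩⟩
            exact hzT (mem_cN.2 ⟨c, hcT, Or.inr hcz.1⟩)
      have h1 := card_le_card hN2
      rw [card_sdiff_of_subset hEsub] at h1
      have h1' := card_le_card hEsub
      have h2 := card_union_le (N2 D y) Dy
      have h3 : (N1 D' y).card + Dy.card = (N1 D y).card := by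
        rw [hN1]
        exact card_sdiff_add_card_eq_card inter_subset_left
      have hDT : Disjoint T Dy := by
        rw [disjoint_left]
        intro z hz hz'
        exact (mem_sdiff.1 (mem_inter.1 hz').2).2 hz
      have e1 : cN D (T ∪ Dy) \ X = (cN D T \ X) ∪ E := by
        rw [cN_union]
        ext z
        simp only [mem_sdiff, mem_union, hE]
        tauto
      have e2 : Disjoint (cN D T \ X) E := by
        rw [disjoint_left]
        intro z hz hz'
        exact (mem_sdiff.1 hz').2 (mem_union_left _ (mem_sdiff.1 hz).1)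
      have h4 := hTmin (T ∪ Dy) (union_subset hT hDyL)
      unfold dd at h4
      rw [e1, card_union_of_disjoint e2, card_union_of_disjoint hDT] at h4
      have h5 := hce y
      push_cast at h4
      omega
    · have h1 : N1 D' y = N1 D y := by
        ext z
        rw [mem_N1, mem_N1]
        exact ⟨fun h3 => h3.1, fun h3 => ⟨h3, fun h4 => hy h4.1⟩⟩
      have h2 : N2 D' y ⊆ N2 D y := by
        intro z hz
        rw [mem_N2] at hz ⊢
        obtain ⟨hzv, hnz, c, hvc, hcz⟩ := hz
        exact ⟨hzv, fun h3 => hnz ⟨h3, fun h4 => hy h4.1⟩, c, hvc.1, hcz.1⟩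
      have h3 := card_le_card h2
      have h4 := hce y
      rw [h1]
      omega
  have h1 := hmin D' hce'
  obtain ⟨z, hzL, hzT⟩ : ∃ z ∈ L, z ∉ T := by
    by_contra hcon
    push Not at hcon
    exact hne (Subset.antisymm hT hcon)
  obtain ⟨hz1, hz2⟩ := mem_sdiff.1 hzL
  obtain ⟨y, hy, hyz⟩ := mem_cN.1 hz1
  have hyz' : D.arc y z := by
    rcases hyz with h2 | h2
    · exact absurd (h2 ▸ hy) hz2
    · exact h2
  have hsub : ∀ v, N1 D' v ⊆ N1 D v := by
    intro v x hx
    rw [mem_N1] at hx ⊢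
    exact hx.1
  have h2 : arcs D' < arcs D := by
    unfold arcs
    refine sum_lt_sum (fun v _ => card_le_card (hsub v)) ⟨y, mem_univ _, ?_⟩
    refine card_lt_card (Finset.ssubset_iff_subset_ne.2 ⟨hsub y, fun he => ?_⟩)
    have h3 : z ∈ N1 D' y := by
      rw [he]
      exact mem_N1.2 hyz'
    exact (mem_N1.1 h3).2 ⟨hy, mem_sdiff.2 ⟨hzL, hzT⟩⟩
  omega

theorem G {D : OGraph V} (hce : CE D) (hmin : ∀ D' : OGraph V, CE D' → arcs D ≤ arcs D')
    (X : Finset V) (hX : (cN D X \ X).Nonempty) : cc D (cN D X) < cc D X := by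
  set L := cN D X \ X with hL
  have h0 : dd D X ∅ = 0 := by
    have : cN D ∅ = ∅ := by
      ext z
      simp [mem_cN]
    unfold dd
    rw [this]
    simp
  obtain ⟨T, hT, hTmin⟩ := exists_min_image L.powerset (dd D X) ⟨∅, empty_mem_powerset _⟩
  rw [mem_powerset] at hT
  have h1 : T = L := del_lemma hce hmin X T hT fun S hS => hTmin S (mem_powerset.2 hS)
  have h2 : dd D X L < 0 := by
    by_contra hcon
    have h3 : (∅ : Finset V) = L := del_lemma hce hmin X ∅ (empty_subset _) fun S hS => by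
      have h4 := hTmin S (mem_powerset.2 hS)
      rw [h1] at h4
      omega
    rw [← h3] at hX
    exact not_nonempty_empty hX
  have e1 : cN D X = X ∪ L := by
    rw [hL, union_sdiff_of_subset (sub_cN D X)]
  have e2 : cN D (cN D X) = X ∪ (cN D L \ X) := by
    rw [e1, cN_union]
    ext z
    have h3 : z ∈ cN D X ↔ z ∈ X ∨ z ∈ L := by
      rw [e1, mem_union]
    have h4 : z ∈ L → z ∈ cN D L := fun h => sub_cN D L h
    simp only [mem_union, mem_sdiff, h3]
    tauto
  have h3 : (cN D X).card = X.card + L.card := by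
    rw [e1]
    exact card_union_of_disjoint disjoint_sdiff
  have h4 : (cN D (cN D X)).card = X.card + (cN D L \ X).card := by
    rw [e2]
    exact card_union_of_disjoint disjoint_sdiff
  unfold dd at h2
  unfold cc
  omega

theorem G_le {D : OGraph V} (hce : CE D) (hmin : ∀ D' : OGraph V, CE D' → arcs D ≤ arcs D')
    (X : Finset V) : cc D (cN D X) ≤ cc D X := by
  by_cases hX : (cN D X \ X).Nonempty
  · exact (G hce hmin X hX).le
  · rw [not_nonempty_iff_eq_empty, sdiff_eq_empty_iff_subset] at hX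
    rw [Subset.antisymm hX (sub_cN D X)]

/-- Seymour's second neighbourhood conjecture: there is no counterexample. -/
theorem no_CE [Nonempty V] (D : OGraph V) : ¬ CE D := by
  intro hD
  obtain ⟨D, hce, hmin'⟩ := (measure (arcs (V := V))).wf.has_min {D : OGraph V | CE D} ⟨D, hD⟩
  have hmin : ∀ D' : OGraph V, CE D' → arcs D ≤ arcs D' := fun D' h => not_lt.1 (hmin' D' h)
  replace hce : CE D := hce
  obtain ⟨B, C, hf, hopt⟩ := exists_opt D
  have h1 := inner_le hf hopt
  have h2 := hopt _ _ (feas_inn hf)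
  have hB : ∀ a, cc D (cN D (inn D B a)) ≤ cc D (inn D B a) := fun a => G_le hce hmin _
  have hC : ∀ a, cc D (cN D (inn D C a)) ≤ cc D (inn D C a) := fun a => G_le hce hmin _
  have sB : ∑ a, cc D (cN D (inn D B a)) ≤ ∑ a, cc D (inn D B a) := sum_le_sum fun a _ => hB a
  have sC : ∑ a, cc D (cN D (inn D C a)) ≤ ∑ a, cc D (inn D C a) := sum_le_sum fun a _ => hC a
  unfold cost at h1 h2
  beta_reduce at h2
  have eC : ∑ a, cc D (cN D (inn D C a)) = ∑ a, cc D (inn D C a) := by omega
  have hCeq : ∀ a, cc D (cN D (inn D C a)) = cc D (inn D C a) := fun a =>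
    (sum_eq_sum_iff_of_le fun a _ => hC a).1 eC a (mem_univ a)
  have hclosed : ∀ a, cN D (inn D C a) ⊆ inn D C a := by
    intro a
    by_contra hcon
    have h3 : (cN D (inn D C a) \ inn D C a).Nonempty := by
      rw [nonempty_iff_ne_empty]
      intro h4
      exact hcon (sdiff_eq_empty_iff_subset.1 h4)
    have h4 := G hce hmin _ h3
    have h5 := hCeq a
    omega
  -- a minimal nonempty closed set
  obtain ⟨R, hR, hRmin⟩ := exists_min_image
    (univ.filter fun R : Finset V => R.Nonempty ∧ cN D R ⊆ R) card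
    ⟨univ, mem_filter.2 ⟨mem_univ _, univ_nonempty, subset_univ _⟩⟩
  rw [mem_filter] at hR
  obtain ⟨_, ⟨a, haR⟩, hRcl⟩ := hR
  obtain ⟨b, hb⟩ : (N1 D a).Nonempty := by
    rw [← card_pos]
    exact (Nat.zero_le _).trans_lt (hce a)
  have hab : D.arc a b := mem_N1.1 hb
  have hbR : b ∈ R := hRcl (mem_cN.2 ⟨a, haR, Or.inr hab⟩)
  have hbC : b ∈ inn D C b := self_mem_inn hf.hC b
  have h3 := hRmin (R ∩ inn D C b) (mem_filter.2 ⟨mem_univ _, ⟨b, mem_inter.2 ⟨hbR, hbC⟩⟩,
    subset_inter ((cN_mono inter_subset_left).trans hRcl)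
      ((cN_mono inter_subset_right).trans (hclosed b))⟩)
  have h4 : R ∩ inn D C b = R := eq_of_subset_of_card_le inter_subset_left h3
  have haC : a ∈ inn D C b := by
    rw [← h4] at haR
    exact (mem_inter.1 haR).2
  have h5 : a ∈ C b := mem_inn.1 haC b (Q_refl D b)
  have h6 : a = b := hf.no a b (hf.hB a b (Or.inr hab)) h5
  subst h6
  exact D.loopless _ hab

/-- Every nonempty finite oriented graph has a vertex `v` with `|N₁⁺(v)| ≤ |N₂⁺(v)|`. -/
theorem seymour (V : Type*) [Fintype V] [Nonempty V] (D : OGraph V) :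
    ∃ v, (N1 D v).card ≤ (N2 D v).card := by
  by_contra hcon
  push Not at hcon
  exact no_CE D hcon

end Vale.Agent.P038.H646
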