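import Vale.Agent.P038.Defs
import Vale.Agent.P038.H646.Comb

/-!
# P038 (H646): the min-cut inequality for oriented graphs
-/

namespace Vale.Agent.P038.H646

open Finset
open scoped Classical

variable {V : Type*} [Fintype V]

/-- Reflexive adjacency. -/
def Q (D : OGraph V) (a x : V) : Prop := a = x ∨ D.arc a x

/-- The closed out-neighbourhood of a set. -/
noncomputable def cN (D : OGraph V) (S : Finset V) : Finset V :=
  univ.filter fun z => ∃ y ∈ S, Q D y z

theorem mem_cN {D : OGraph V} {S : Finset V} {z : V} : z ∈ cN D S ↔ ∃ y ∈ S, Q D y z := by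
  simp [cN]

theorem Q_refl (D : OGraph V) (a : V) : Q D a a := Or.inl rfl

theorem Q_anti {D : OGraph V} {a b : V} (h1 : Q D a b) (h2 : Q D b a) : a = b := by
  rcases h1 with h1 | h1
  · exact h1
  · rcases h2 with h2 | h2
    · exact h2.symm
    · exact absurd h2 (D.asymm _ _ h1)

theorem sub_cN (D : OGraph V) (S : Finset V) : S ⊆ cN D S :=
  fun z hz => mem_cN.2 ⟨z, hz, Q_refl D z⟩

theorem cN_mono {D : OGraph V} {S T : Finset V} (h : S ⊆ T) : cN D S ⊆ cN D T := by
  intro z hz
  obtain ⟨y, hy, hyz⟩ := mem_cN.1 hz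
  exact mem_cN.2 ⟨y, h hy, hyz⟩

theorem cN_union {D : OGraph V} {S T : Finset V} : cN D (S ∪ T) = cN D S ∪ cN D T := by
  ext z
  rw [mem_union, mem_cN, mem_cN, mem_cN]
  constructor
  · rintro ⟨y, hy, hyz⟩
    rcases mem_union.1 hy with h | h
    · exact Or.inl ⟨y, h, hyz⟩
    · exact Or.inr ⟨y, h, hyz⟩
  · rintro (⟨y, hy, hyz⟩ | ⟨y, hy, hyz⟩)
    · exact ⟨y, mem_union_left _ hy, hyz⟩
    · exact ⟨y, mem_union_right _ hy, hyz⟩

/-- The cost `|N[S]| - |S|`. -/
noncomputable def cc (D : OGraph V) (S : Finset V) : ℤ := ((cN D S).card : ℤ) - S.card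

theorem cc_sub (D : OGraph V) (S T : Finset V) :
    cc D (S ∩ T) + cc D (S ∪ T) ≤ cc D S + cc D T := by
  unfold cc
  rw [cN_union]
  have h1 := card_union_add_card_inter (cN D S) (cN D T)
  have h2 := card_union_add_card_inter S T
  have h3 : (cN D (S ∩ T)).card ≤ (cN D S ∩ cN D T).card :=
    card_le_card (subset_inter (cN_mono inter_subset_left) (cN_mono inter_subset_right))
  omega

/-- Double counting with complements. -/
theorem count (R R' : V → Finset V) (h : ∀ a b, a ∈ R b ↔ b ∉ R' a) :
    ∑ b, ((R b).card : ℤ) + ∑ a, ((R' a).card : ℤ) = ∑ _a : V, (Fintype.card V : ℤ) := by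
  have h1 : ∑ b, (R b).card = ∑ a, (univ.filter fun b => a ∈ R b).card := by
    simp_rw [card_filter]
    rw [sum_comm]
    refine sum_congr rfl fun b _ => ?_
    rw [← card_filter]
    congr 1
    ext a
    simp
  have h2 : ∀ a, (univ.filter fun b => a ∈ R b).card + (R' a).card = Fintype.card V := by
    intro a
    have e : (univ.filter fun b => a ∈ R b) = univ \ R' a := by
      ext b
      rw [mem_filter, mem_sdiff, h]
    rw [e]
    exact card_sdiff_add_card_eq_card (subset_univ _)
  have h3 : ∑ b, ((R b).card : ℤ) = ∑ a, ((univ.filter fun b => a ∈ R b).card : ℤ) := by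
    exact_mod_cast h1
  rw [h3, ← sum_add_distrib]
  refine sum_congr rfl fun a _ => ?_
  exact_mod_cast h2 a

/-- Feasible pairs for the second problem. -/
structure Feas (D : OGraph V) (B C : V → Finset V) : Prop where
  hB : ∀ a x, Q D a x → x ∈ B a
  hC : ∀ a x, Q D a x → x ∈ C a
  no : ∀ a b, b ∈ B a → a ∈ C b → a = b

/-- The cost of a pair of families. -/
noncomputable def cost (D : OGraph V) (B C : V → Finset V) : ℤ :=
  ∑ a, cc D (B a) + ∑ a, cc D (C a)

theorem exists_opt (D : OGraph V) : ∃ B C : V → Finset V, Feas D B C ∧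
    ∀ B' C', Feas D B' C' → cost D B C ≤ cost D B' C' := by
  obtain ⟨⟨B, C⟩, h1, h2⟩ := Set.exists_min_image
    {p : (V → Finset V) × (V → Finset V) | Feas D p.1 p.2} (fun p => cost D p.1 p.2)
    (Set.toFinite _) ⟨(fun a => univ.filter fun x => Q D a x, fun a => univ.filter fun x => Q D a x),
      ⟨fun a x h => by simpa using h, fun a x h => by simpa using h, fun a b h h' => by
        simp only [mem_filter, mem_univ, true_and] at h h'
        exact Q_anti h h'⟩⟩
  exact ⟨B, C, h1, fun B' C' h => h2 (B', C') h⟩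

/-- The inner family. -/
noncomputable def inn (D : OGraph V) (B : V → Finset V) (a : V) : Finset V :=
  univ.filter fun x => ∀ z, Q D z a → x ∈ B z

theorem mem_inn {D : OGraph V} {B : V → Finset V} {a x : V} :
    x ∈ inn D B a ↔ ∀ z, Q D z a → x ∈ B z := by
  simp [inn]

theorem self_mem_inn {D : OGraph V} {B : V → Finset V} (hB : ∀ a x, Q D a x → x ∈ B a) (a : V) :
    a ∈ inn D B a := mem_inn.2 fun z hz => hB z a hz

theorem feas_inn {D : OGraph V} {B C : V → Finset V} (h : Feas D B C) :
    Feas D (fun a => cN D (inn D B a)) (fun a => cN D (inn D C a)) := by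
  refine ⟨fun a x hx => mem_cN.2 ⟨a, self_mem_inn h.hB a, hx⟩,
    fun a x hx => mem_cN.2 ⟨a, self_mem_inn h.hC a, hx⟩, ?_⟩
  intro a b hb ha
  obtain ⟨x, hx, hxb⟩ := mem_cN.1 hb
  obtain ⟨y, hy, hya⟩ := mem_cN.1 ha
  rw [mem_inn] at hx hy
  -- x ∈ B y, y ∈ C x
  have e : y = x := h.no y x (hx y hya) (hy x hxb)
  subst e
  have e1 : a = y := h.no a y (hx a (Q_refl D a)) (h.hC y a hya)
  have e2 : y = b := h.no y b (h.hB y b hxb) (hy b (Q_refl D b))
  exact e1.trans e2

section crit

variable {D : OGraph V} {B C : V → Finset V}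

theorem sum_update (F : Finset V → ℤ) (B : V → Finset V) (a : V) (S : Finset V) :
    ∑ x, F (Function.update B a S x) = ∑ x, F (B x) + (F S - F (B a)) := by
  rw [← add_sum_erase univ _ (mem_univ a), ← add_sum_erase univ (fun x => F (B x)) (mem_univ a)]
  have h1 : ∑ x ∈ univ.erase a, F (Function.update B a S x) = ∑ x ∈ univ.erase a, F (B x) := by
    refine sum_congr rfl fun x hx => ?_
    rw [Function.update_of_ne (ne_of_mem_erase hx)]
  rw [h1, Function.update_self]
  ring

theorem crit_row (h : Feas D B C) (hmin : ∀ B' C', Feas D B' C' → cost D B C ≤ cost D B' C')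
    (a : V) (S : Finset V) (h1 : B a ⊆ S) (h2 : ∀ x ∈ S, x = a ∨ a ∉ C x) :
    cc D (B a) ≤ cc D S := by
  have h3 : Feas D (Function.update B a S) C := by
    refine ⟨?_, h.hC, ?_⟩
    · intro x y hxy
      by_cases hx : x = a
      · subst hx
        rw [Function.update_self]
        exact h1 (h.hB _ _ hxy)
      · rw [Function.update_of_ne hx]
        exact h.hB _ _ hxy
    · intro x y hy hx
      by_cases hxa : x = a
      · subst hxa
        rw [Function.update_self] at hy
        rcases h2 y hy with h4 | h4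
        · exact h4.symm
        · exact absurd hx h4
      · rw [Function.update_of_ne hxa] at hy
        exact h.no _ _ hy hx
  have h4 := hmin _ _ h3
  unfold cost at h4
  rw [sum_update] at h4
  omega

theorem crit_col (h : Feas D B C) (hmin : ∀ B' C', Feas D B' C' → cost D B C ≤ cost D B' C')
    (b : V) (S : Finset V) (h1 : C b ⊆ S) (h2 : ∀ x ∈ S, x ∈ C b ∨ b ∉ B x) :
    cc D (C b) ≤ cc D S := by
  have h3 : Feas D B (Function.update C b S) := by
    refine ⟨h.hB, ?_, ?_⟩
    · intro x y hxy
      by_cases hx : x = b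
      · subst hx
        rw [Function.update_self]
        exact h1 (h.hC _ _ hxy)
      · rw [Function.update_of_ne hx]
        exact h.hC _ _ hxy
    · intro x y hy hx
      by_cases hyb : y = b
      · subst hyb
        rw [Function.update_self] at hx
        rcases h2 x hx with h4 | h4
        · exact h.no _ _ hy h4
        · exact absurd hy h4
      · rw [Function.update_of_ne hyb] at hx
        exact h.no _ _ hy hx
  have h4 := hmin _ _ h3
  unfold cost at h4
  rw [sum_update] at h4
  omega

/-- The main inequality: the inner pair is not more expensive. -/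
theorem inner_le (h : Feas D B C) (hmin : ∀ B' C', Feas D B' C' → cost D B C ≤ cost D B' C') :
    cost D (inn D B) (inn D C) ≤ cost D B C := by
  have hBC : ∀ a x, x ∈ B a → x = a ∨ a ∉ C x := by
    intro a x hx
    by_cases h1 : a ∈ C x
    · exact Or.inl (h.no a x hx h1).symm
    · exact Or.inr h1
  set U : V → Finset V := fun a => univ.filter fun x => x = a ∨ a ∉ C x with hU
  set Uo : V → Finset V := fun a => univ.filter fun x => a ∉ C x with hUo
  set M : V → Finset V := fun a => univ.filter fun z => Q D z a with hM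
  have memU : ∀ a x, x ∈ U a ↔ x = a ∨ a ∉ C x := by
    intro a x
    simp [hU]
  have memUo : ∀ a x, x ∈ Uo a ↔ a ∉ C x := by
    intro a x
    simp [hUo]
  have memM : ∀ a z, z ∈ M a ↔ Q D z a := by
    intro a z
    simp [hM]
  have hkey := key_lemma (cc D) (cc_sub D) M B U
    (fun a x hx => (memU a x).2 (hBC a x hx))
    (fun a S h1 h2 => crit_row h hmin a S h1 fun x hx => (memU a x).1 (h2 hx))
    (by
      intro b T hT
      have h1 : cc D (C b) ≤ cc D (C b ∪ T) := by
        refine crit_col h hmin b _ subset_union_left fun x hx => ?_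
        rcases mem_union.1 hx with hx | hx
        · exact Or.inl hx
        · exact Or.inr (hT x hx).2
      have hTC : ∀ a ∈ T, a ∉ C b := by
        intro a ha hab
        rcases (memU a b).1 (hT a ha).1 with h2 | h2
        · subst h2
          exact (hT b ha).2 (h.hB b b (Q_refl D b))
        · exact h2 hab
      have h2 : (C b ∪ T).card = (C b).card + T.card := by
        refine card_union_of_disjoint ?_
        rw [disjoint_left]
        exact fun x hx hx' => hTC x hx' hx
      have h3 : (cN D (C b ∪ T)).card ≤ (cN D (C b)).card +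
          (univ.filter fun a' => (∀ z ∈ M a', b ∈ U z) ∧ ∃ z ∈ M a', z ∈ T).card := by
        refine (card_le_card ?_).trans (card_union_le _ _)
        intro x hx
        by_cases hxC : x ∈ cN D (C b)
        · exact mem_union_left _ hxC
        refine mem_union_right _ (mem_filter.2 ⟨mem_univ _, ?_, ?_⟩)
        · intro z hz
          rw [memU]
          refine Or.inr fun hzC => hxC (mem_cN.2 ⟨z, hzC, (memM _ _).1 hz⟩)
        · obtain ⟨y, hy, hyx⟩ := mem_cN.1 hx
          rcases mem_union.1 hy with hy | hy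
          · exact absurd (mem_cN.2 ⟨y, hy, hyx⟩) hxC
          · exact ⟨y, (memM _ _).2 hyx, hy⟩
      unfold cc at h1
      omega)
  have eX : ∀ a, (univ.filter fun x => ∀ z ∈ M a, x ∈ B z) = inn D B a := by
    intro a
    ext x
    rw [mem_filter, mem_inn]
    simp only [memM, mem_univ, true_and]
  simp only [eX] at hkey
  set S' : V → Finset V := fun a => univ.filter fun x => ∀ z ∈ M a, x ∈ U z with hS'
  have hkey' : ∑ a, (cc D (U a) - cc D (B a)) ≤ ∑ a, (cc D (S' a) - cc D (inn D B a)) := hkey
  clear hkey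
  have memS' : ∀ a x, x ∈ S' a ↔ ∀ z, Q D z a → x ∈ U z := by
    intro a x
    simp only [hS', mem_filter, mem_univ, true_and, memM]
  -- double counting
  have c1 := count C Uo (fun a b => by rw [memUo]; tauto)
  have c2 := count (fun b => cN D (C b)) (inn D Uo) (fun a b => by
    rw [mem_cN, mem_inn]
    push Not
    constructor
    · rintro ⟨y, hy, hya⟩
      exact ⟨y, hya, by rw [memUo]; tauto⟩
    · rintro ⟨y, hya, hy⟩
      rw [memUo] at hy
      exact ⟨y, by tauto, hya⟩)
  have c3 := count (inn D C) (fun a => cN D (Uo a)) (fun a b => by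
    rw [mem_cN, mem_inn]
    push Not
    constructor
    · intro h1 y hy hyb
      rw [memUo] at hy
      exact hy (h1 y hyb)
    · intro h1 y hyb
      by_contra hcon
      exact h1 y ((memUo _ _).2 hcon) hyb)
  have c4 := count (fun b => cN D (inn D C b)) (inn D fun a => cN D (Uo a)) (fun a b => by
    rw [mem_cN, mem_inn]
    push Not
    constructor
    · rintro ⟨y, hy, hya⟩
      refine ⟨y, hya, fun h1 => ?_⟩
      obtain ⟨s, hs, hsb⟩ := mem_cN.1 h1
      rw [mem_inn] at hy
      exact (memUo _ _).1 hs (hy s hsb)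
    · rintro ⟨y, hya, hy⟩
      refine ⟨y, mem_inn.2 fun s hs => ?_, hya⟩
      by_contra hcon
      exact hy (mem_cN.2 ⟨s, (memUo _ _).2 hcon, hs⟩))
  -- termwise inequalities
  have t1 : ∀ a, (U a).card ≤ (Uo a).card + 1 := by
    intro a
    refine (card_le_card ?_).trans (card_insert_le a (Uo a))
    intro x hx
    rw [mem_insert, memUo]
    exact (memU a x).1 hx
  have t2 : ∀ a, (cN D (Uo a)).card + 1 ≤ (cN D (U a)).card := by
    intro a
    have h1 : a ∉ cN D (Uo a) := by
      intro h1
      obtain ⟨y, hy, hya⟩ := mem_cN.1 h1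
      exact (memUo _ _).1 hy (h.hC _ _ hya)
    rw [← card_insert_of_notMem h1]
    refine card_le_card (insert_subset ?_ (cN_mono ?_))
    · exact mem_cN.2 ⟨a, (memU a a).2 (Or.inl rfl), Q_refl D a⟩
    · intro x hx
      exact (memU a x).2 (Or.inr ((memUo a x).1 hx))
  have t3 : ∀ a, (inn D Uo a).card + 1 ≤ (S' a).card := by
    intro a
    have h1 : a ∉ inn D Uo a := by
      intro h1
      have h2 := mem_inn.1 h1 a (Q_refl D a)
      exact (memUo a a).1 h2 (h.hC a a (Q_refl D a))
    rw [← card_insert_of_notMem h1]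
    refine card_le_card (insert_subset ?_ ?_)
    · rw [memS']
      intro z hz
      exact (memU z a).2 (hBC z a (h.hB z a hz))
    · intro x hx
      rw [memS']
      intro z hz
      exact (memU z x).2 (Or.inr ((memUo z x).1 (mem_inn.1 hx z hz)))
  have t4 : ∀ a, (cN D (S' a)).card ≤ (inn D (fun a => cN D (Uo a)) a).card + 1 := by
    intro a
    refine (card_le_card ?_).trans (card_insert_le a _)
    intro x hx
    by_cases hxa : x = a
    · exact mem_insert.2 (Or.inl hxa)
    refine mem_insert_of_mem (mem_inn.2 fun s hs => ?_)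
    obtain ⟨q, hq, hqx⟩ := mem_cN.1 hx
    rw [memS'] at hq
    rcases (memU s q).1 (hq s hs) with h1 | h1
    · subst h1
      by_cases hxq : x = q
      · exfalso
        subst hxq
        rcases (memU a x).1 (hq a (Q_refl D a)) with h2 | h2
        · exact hxa h2
        · exact h2 (h.hC x a hs)
      · refine mem_cN.2 ⟨x, (memUo q x).2 fun h2 => hxq ?_, Q_refl D x⟩
        exact (h.no q x (h.hB q x hqx) h2).symm
    · exact mem_cN.2 ⟨q, (memUo s q).2 h1, hqx⟩
  have T1 : ∑ a, ((U a).card : ℤ) ≤ ∑ a, (((Uo a).card : ℤ) + 1) :=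
    sum_le_sum fun a _ => by exact_mod_cast t1 a
  have T2 : ∑ a, (((cN D (Uo a)).card : ℤ) + 1) ≤ ∑ a, ((cN D (U a)).card : ℤ) :=
    sum_le_sum fun a _ => by exact_mod_cast t2 a
  have T3 : ∑ a, (((inn D Uo a).card : ℤ) + 1) ≤ ∑ a, ((S' a).card : ℤ) :=
    sum_le_sum fun a _ => by exact_mod_cast t3 a
  have T4 : ∑ a, ((cN D (S' a)).card : ℤ) ≤
      ∑ a, (((inn D (fun a => cN D (Uo a)) a).card : ℤ) + 1) :=
    sum_le_sum fun a _ => by exact_mod_cast t4 a
  unfold cost
  simp only [cc, sum_sub_distrib, sum_add_distrib] at hkey' T1 T2 T3 T4 ⊢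
  omega

end crit

end Vale.Agent.P038.H646
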